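import Crest.Agent.R208.T0b
import Crest.Agent.R273.Map_835

/-!
# Row 262, MAN (helper16), part 1: embedded complex manifolds

* `cL n : Eu (2 * n) ≃L[ℝ] Cn n` : real coordinates `(x₀, y₀, x₁, y₁, …)`; `topC n`;
* `Emb A E`  : a smooth embedding `j : M → E` of the complex manifold `(M, A)`;
* `ε.X = range j`, `ε.par i` the parametrisation by the chart `i`; `ε.chart`, `ε.clo`;
* `ε.tan_eq`, `ε.eqv_iff` : forms on `ε.X` are read in the holomorphic charts;
* `exists_of_local` : gluing for convex conditions along a locally closed set;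
* `ε.exists_ext`, `ε.exists_ext_on` : ambient extension of smooth functions;
* `ε.exists_form`, `ε.exists_form_on` : ambient forms from compatible local forms;
* `ε.amb ε' p`, `ε.smap` : a holomorphic map as an `SMap`.
-/

set_option autoImplicit false
set_option linter.unusedSectionVars false
set_option linter.style.haveILetI false

open Set Filter Topology Function
open scoped ContDiff Manifold

noncomputable section

namespace Crest.Agent.X262.Man

open Crest.Agent.R208.F Crest.Agent.R208.FI Crest.Agent.R208.CW Crest.Agent.R208.T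
open Crest.Agent.R275.Geo (Cn RI rc Atl)
open Crest.Agent.R273.Map_835 (HolMap)

/-! ### real coordinates -/

/-- the position of the real coordinates: `(a, 0) ↦ 2 a`, `(a, 1) ↦ 2 a + 1` -/
def ix (n : ℕ) : RI n ≃ Fin (2 * n) := finProdFinEquiv.trans (finCongr (Nat.mul_comm n 2))

theorem ix_val {n : ℕ} (p : RI n) : (ix n p : ℕ) = p.2 + 2 * p.1 := rfl

/-- real coordinates, as a linear equivalence -/
def cL0 (n : ℕ) : Eu (2 * n) ≃ₗ[ℝ] Cn n where
  toFun x := WithLp.toLp 2 fun a => (x (ix n (a, 0)) : ℂ) + (x (ix n (a, 1)) : ℂ) * Complex.I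
  invFun z := WithLp.toLp 2 fun k => rc z ((ix n).symm k)
  map_add' x y := by
    ext a
    simp
    ring
  map_smul' r x := by
    ext a
    simp
    ring
  left_inv x := by
    ext k
    obtain ⟨⟨a, b⟩, rfl⟩ := (ix n).surjective k
    fin_cases b <;> simp [rc]
  right_inv z := by
    ext a
    simp [rc, Complex.re_add_im]

/-- real coordinates -/
def cL (n : ℕ) : Eu (2 * n) ≃L[ℝ] Cn n := (cL0 n).toContinuousLinearEquiv

theorem cL_apply {n : ℕ} (x : Eu (2 * n)) (a : Fin n) :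
    cL n x a = (x (ix n (a, 0)) : ℂ) + (x (ix n (a, 1)) : ℂ) * Complex.I := rfl


/-- the coefficient of `dx₀ dy₀ dx₁ dy₁ ⋯` -/
def topC (n : ℕ) : Ext (Cn n) →ₗ[ℝ] ℝ :=
  top (2 * n) ∘ₗ (pb ((cL n : Eu (2 * n) →L[ℝ] Cn n) : Eu (2 * n) →ₗ[ℝ] Cn n)).toLinearMap

theorem topC_apply {n : ℕ} (c : Ext (Cn n)) :
    topC n c = top (2 * n) (pb ((cL n : Eu (2 * n) →L[ℝ] Cn n) : Eu (2 * n) →ₗ[ℝ] Cn n) c) := rfl

theorem continuous_topC {n : ℕ} : Continuous (topC n) := LinearMap.continuous_of_finiteDimensional _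

/-! ### gluing -/

section glue

variable {E G : Type} [NormedAddCommGroup E] [NormedSpace ℝ E] [FiniteDimensional ℝ E]
  [NormedAddCommGroup G] [NormedSpace ℝ G]

/-- gluing of local solutions of convex conditions on an open set -/
theorem exists_of_local_open {O : Set E} (hO : IsOpen O) {t : E → Set G}
    (ht : ∀ x ∈ O, Convex ℝ (t x))
    (h : ∀ x ∈ O, ∃ U ∈ 𝓝 x, ∃ g : E → G, ContDiffOn ℝ ∞ g U ∧ ∀ y ∈ U, y ∈ O → g y ∈ t y) :
    ∃ g : E → G, (∀ x ∈ O, ContDiffAt ℝ ∞ g x) ∧ ∀ x ∈ O, g x ∈ t x := by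
  classical
  let O' : TopologicalSpace.Opens E := ⟨O, hO⟩
  haveI : LocallyCompactSpace O' := hO.locallyCompactSpace
  obtain ⟨g, hg⟩ := exists_contMDiffMap_forall_mem_convex_of_local (n := (⊤ : ℕ∞)) (I := 𝓘(ℝ, E))
    (M := O') (F := G) (t := fun x => t x.1) (fun x => ht x.1 x.2) (fun x => by
      obtain ⟨U, hU, g, h1, h2⟩ := h x.1 x.2
      refine ⟨Subtype.val ⁻¹' U, continuous_subtype_val.continuousAt.preimage_mem_nhds hU,
        fun y => g y.1, ?_, fun y hy => h2 y.1 hy y.2⟩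
      exact h1.contMDiffOn.comp contMDiff_subtype_val.contMDiffOn fun y hy => hy)
  refine ⟨fun x => if hx : x ∈ O then g ⟨x, hx⟩ else 0, fun x hx => ?_, fun x hx => ?_⟩
  · have h1 : ContMDiffAt 𝓘(ℝ, E) 𝓘(ℝ, G) ∞
        (fun y : O' => (fun x => if hx : x ∈ O then g ⟨x, hx⟩ else 0) y.1) ⟨x, hx⟩ := by
      refine (g.contMDiff ⟨x, hx⟩).congr_of_eventuallyEq (Eventually.of_forall fun y => ?_)
      exact dif_pos y.2
    exact ((contMDiffAt_subtype_iff (U := O')
      (f := fun x => if hx : x ∈ O then g ⟨x, hx⟩ else 0) (x := ⟨x, hx⟩)).1 h1).contDiffAt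
  · simp only [dif_pos hx]
    exact hg ⟨x, hx⟩

/-- gluing of local solutions of convex conditions along `X ∩ O`, `X` closed and `O` open -/
theorem exists_of_local {X O : Set E} (hX : IsClosed X) (hO : IsOpen O) {t : E → Set G}
    (ht : ∀ x ∈ X ∩ O, Convex ℝ (t x))
    (h : ∀ x ∈ X ∩ O, ∃ U ∈ 𝓝 x, ∃ g : E → G, ContDiffOn ℝ ∞ g U ∧
      ∀ y ∈ U, y ∈ X ∩ O → g y ∈ t y) :
    ∃ g : E → G, (∀ x ∈ O, ContDiffAt ℝ ∞ g x) ∧ ∀ x ∈ X ∩ O, g x ∈ t x := by
  classical
  obtain ⟨g, h1, h2⟩ := exists_of_local_open (G := G) hO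
    (t := fun x => if x ∈ X then t x else univ)
    (fun x hx => by
      split_ifs with hxX
      · exact ht x ⟨hxX, hx⟩
      · exact convex_univ)
    (fun x hx => by
      by_cases hxX : x ∈ X
      · obtain ⟨U, hU, g, h1, h2⟩ := h x ⟨hxX, hx⟩
        refine ⟨U, hU, g, h1, fun y hy hyO => ?_⟩
        split_ifs with hyX
        · exact h2 y hy ⟨hyX, hyO⟩
        · trivial
      · refine ⟨Xᶜ, hX.isOpen_compl.mem_nhds hxX, fun _ => 0, contDiffOn_const, fun y hy _ => ?_⟩
        rw [if_neg hy]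
        trivial)
  refine ⟨g, h1, fun x hx => ?_⟩
  have := h2 x hx.2
  rwa [if_pos hx.1] at this

open Classical in
/-- a smooth map `g` with `g ∘ j = f`, if there is one -/
def ambF {M : Type} (j : M → E) (f : M → G) : E → G :=
  if h : ∃ g : E → G, ContDiff ℝ ∞ g ∧ ∀ y, g (j y) = f y then h.choose else 0

theorem contDiff_ambF {M : Type} (j : M → E) (f : M → G) : ContDiff ℝ ∞ (ambF j f) := by
  unfold ambF
  split_ifs with h
  · exact h.choose_spec.1
  · exact contDiff_const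

theorem ambF_j {M : Type} {j : M → E} {f : M → G}
    (h : ∃ g : E → G, ContDiff ℝ ∞ g ∧ ∀ y, g (j y) = f y) (y : M) : ambF j f (j y) = f y := by
  rw [ambF, dif_pos h]
  exact h.choose_spec.2 y

end glue

/-! ### embeddings -/

variable {n m : ℕ} {M N : Type} [TopologicalSpace M] [TopologicalSpace N]

/-- a smooth embedding of a complex manifold in a real vector space -/
structure Emb (A : Atl n M) (E : Type) [NormedAddCommGroup E] [NormedSpace ℝ E] where
  /-- the embedding -/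
  j : M → E
  inj : Injective j
  sm : A.Sm j
  imm : ∀ i, ∀ z ∈ (A.e i).target, Injective (fderiv ℝ (fun z => j ((A.e i).symm z)) z)

theorem continuous_of_sm {A : Atl n M} {G : Type*} [NormedAddCommGroup G] [NormedSpace ℝ G]
    {f : M → G} (h : A.Sm f) : Continuous f := by
  refine continuous_iff_continuousAt.2 fun x => ?_
  obtain ⟨i, hi⟩ := A.cover x
  have h1 : ContinuousAt (fun z => f ((A.e i).symm z)) (A.e i x) :=
    (h i).continuousOn.continuousAt ((A.e i).open_target.mem_nhds ((A.e i).map_source hi))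
  refine (h1.comp ((A.e i).continuousAt hi)).congr ?_
  filter_upwards [(A.e i).open_source.mem_nhds hi] with y hy
  simp only [comp_apply, (A.e i).left_inv hy]

/-- smooth on the open set `U` -/
def SmOn (A : Atl n M) {G : Type*} [NormedAddCommGroup G] [NormedSpace ℝ G] (U : Set M)
    (f : M → G) : Prop :=
  ∀ i, ∀ x ∈ (A.e i).source, x ∈ U → ContDiffAt ℝ ∞ (fun z => f ((A.e i).symm z)) (A.e i x)

theorem smOn_univ {A : Atl n M} {G : Type*} [NormedAddCommGroup G] [NormedSpace ℝ G] {f : M → G} :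
    SmOn A univ f ↔ A.Sm f := by
  refine ⟨fun h i z hz => ?_, fun h i x hx _ => ?_⟩
  · have := h i _ ((A.e i).map_target hz) trivial
    rw [(A.e i).right_inv hz] at this
    exact this.contDiffWithinAt
  · exact (h i).contDiffAt ((A.e i).open_target.mem_nhds ((A.e i).map_source hx))

/-- the transition map from the chart `i` to the chart `k` -/
def tr (A : Atl n M) (i k : A.ι) (z : Cn n) : Cn n := A.e k ((A.e i).symm z)

theorem isOpen_ov (A : Atl n M) (i k : A.ι) : IsOpen (A.ov i k) :=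
  (A.e i).isOpen_inter_preimage_symm (A.e k).open_source

theorem mem_ov {A : Atl n M} {i k : A.ι} {x : M} (hi : x ∈ (A.e i).source)
    (hk : x ∈ (A.e k).source) : A.e i x ∈ A.ov i k :=
  ⟨(A.e i).map_source hi, by rw [(A.e i).left_inv hi]; exact hk⟩

theorem analyticAt_tr {A : Atl n M} {i k : A.ι} {z : Cn n} (hz : z ∈ A.ov i k) :
    AnalyticAt ℂ (tr A i k) z :=
  (R273.Map_835.holMap_id A).analyticAt (i := i) (j := k) hz

theorem contDiffAt_tr {A : Atl n M} {i k : A.ι} {z : Cn n} (hz : z ∈ A.ov i k) :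
    ContDiffAt ℝ ∞ (tr A i k) z :=
  ((analyticAt_tr hz).contDiffAt (n := ∞)).restrict_scalars ℝ

theorem tr_e {A : Atl n M} {i k : A.ι} {x : M} (hi : x ∈ (A.e i).source) :
    tr A i k (A.e i x) = A.e k x := by
  rw [tr, (A.e i).left_inv hi]

/-- smoothness can be checked in one chart at every point -/
theorem smOn_of_local {A : Atl n M} {G : Type*} [NormedAddCommGroup G] [NormedSpace ℝ G]
    {U : Set M} {f : M → G} (h : ∀ x ∈ U, ∃ k, x ∈ (A.e k).source ∧
      ContDiffAt ℝ ∞ (fun z => f ((A.e k).symm z)) (A.e k x)) : SmOn A U f := by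
  intro i x hx hU
  obtain ⟨k, hk, h1⟩ := h x hU
  rw [← tr_e (k := k) hx] at h1
  refine (h1.comp _ (contDiffAt_tr (mem_ov hx hk))).congr_of_eventuallyEq ?_
  filter_upwards [(isOpen_ov A i k).mem_nhds (mem_ov hx hk)] with z hz
  simp only [comp_apply, tr, (A.e k).left_inv hz.2]

namespace Emb

variable {A : Atl n M} {E : Type} [NormedAddCommGroup E] [NormedSpace ℝ E] [FiniteDimensional ℝ E]
  (ε : Emb A E)

/-- the image -/
def X : Set E := range ε.j

/-- the parametrisation by the chart `i` -/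
def par (i : A.ι) (z : Cn n) : E := ε.j ((A.e i).symm z)

theorem mem (x : M) : ε.j x ∈ ε.X := mem_range_self x

theorem par_mem (i : A.ι) (z : Cn n) : ε.par i z ∈ ε.X := ε.mem _

theorem cont : Continuous ε.j := continuous_of_sm ε.sm

variable {i k : A.ι} {x : M} {z : Cn n}

theorem par_e (hx : x ∈ (A.e i).source) : ε.par i (A.e i x) = ε.j x := by
  rw [par, (A.e i).left_inv hx]

theorem contDiffAt_par (hz : z ∈ (A.e i).target) : ContDiffAt ℝ ∞ (ε.par i) z :=
  (ε.sm i).contDiffAt ((A.e i).open_target.mem_nhds hz)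

theorem diff_par (hz : z ∈ (A.e i).target) : DifferentiableAt ℝ (ε.par i) z :=
  (ε.contDiffAt_par hz).differentiableAt (by simp)

theorem par_tr (hz : z ∈ A.ov i k) : ε.par k (tr A i k z) = ε.par i z := by
  rw [par, par, tr, (A.e k).left_inv hz.2]

theorem par_tr_ev (hz : z ∈ A.ov i k) : (fun w => ε.par k (tr A i k w)) =ᶠ[𝓝 z] ε.par i := by
  filter_upwards [(isOpen_ov A i k).mem_nhds hz] with w hw using ε.par_tr hw

/-- forms read in two charts -/
theorem pull_par_tr (hz : z ∈ A.ov i k) (w : E → Ext E) :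
    pull (ε.par i) w z = pull (tr A i k) (pull (ε.par k) w) z := by
  rw [← pull_congr (ε.par_tr_ev hz)]
  exact (pull_comp ((contDiffAt_tr hz).differentiableAt (by simp))
    (ε.diff_par ((A.e k).map_source hz.2))).symm

theorem forall_X {p : E → Prop} : (∀ y ∈ ε.X, p y) ↔ ∀ x, p (ε.j x) := forall_mem_range

theorem forall_par {p : E → Prop} : (∀ y ∈ ε.X, p y) ↔ ∀ i, ∀ z ∈ (A.e i).target, p (ε.par i z) := by
  refine ⟨fun h i z _ => h _ (ε.par_mem i z), fun h => ε.forall_X.2 fun x => ?_⟩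
  obtain ⟨i, hi⟩ := A.cover x
  rw [← ε.par_e hi]
  exact h i _ ((A.e i).map_source hi)

/-- the parametrisation in real coordinates -/
def rpar (i : A.ι) (u : Eu (2 * n)) : E := ε.par i (cL n u)

theorem pull_rpar {u : Eu (2 * n)} (hu : cL n u ∈ (A.e i).target) (w : E → Ext E) :
    pull (ε.rpar i) w u =
      pb ((cL n : Eu (2 * n) →L[ℝ] Cn n) : Eu (2 * n) →ₗ[ℝ] Cn n) (pull (ε.par i) w (cL n u)) := by
  have h := pull_comp (f := cL n) (g := ε.par i) (om := w) (x := u) (cL n).differentiableAt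
    (ε.diff_par hu)
  rw [show ε.rpar i = ε.par i ∘ cL n from rfl, ← h, pull, (cL n).fderiv]

theorem top_rpar {u : Eu (2 * n)} (hu : cL n u ∈ (A.e i).target) (w : E → Ext E) :
    top (2 * n) (pull (ε.rpar i) w u) = topC n (pull (ε.par i) w (cL n u)) := by
  rw [ε.pull_rpar hu, topC_apply]

theorem fderiv_rpar {u : Eu (2 * n)} (hu : cL n u ∈ (A.e i).target) :
    fderiv ℝ (ε.rpar i) u = (fderiv ℝ (ε.par i) (cL n u)).comp (cL n : Eu (2 * n) →L[ℝ] Cn n) := by
  have h := fderiv_comp u (ε.diff_par hu) (cL n).differentiableAt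
  rw [(cL n).fderiv] at h
  exact h

variable [CompactSpace M]

theorem isClosedEmbedding : IsClosedEmbedding ε.j := ε.cont.isClosedEmbedding ε.inj

theorem isCompact_X : IsCompact ε.X := isCompact_range ε.cont

theorem isClosed_X : IsClosed ε.X := ε.isCompact_X.isClosed

/-- the open set of the ambient space which cuts out the image of `U` -/
def op (U : Set M) : Set E := (ε.j '' Uᶜ)ᶜ

theorem isOpen_op {U : Set M} (hU : IsOpen U) : IsOpen (ε.op U) :=
  (ε.isClosedEmbedding.isClosedMap _ hU.isClosed_compl).isOpen_compl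

theorem mem_op {U : Set M} : ε.j x ∈ ε.op U ↔ x ∈ U := by
  rw [op, mem_compl_iff, ε.inj.mem_set_image, mem_compl_iff, not_not]

theorem inter_op (U : Set M) : ε.X ∩ ε.op U = ε.j '' U := by
  ext y
  constructor
  · rintro ⟨⟨x, rfl⟩, h⟩
    exact ⟨x, ε.mem_op.1 h, rfl⟩
  · rintro ⟨x, h, rfl⟩
    exact ⟨ε.mem x, ε.mem_op.2 h⟩

theorem chart (i : A.ι) : Chart (2 * n) ε.X (ε.rpar i) (cL n ⁻¹' (A.e i).target) where
  isOpen := (A.e i).open_target.preimage (cL n).continuous
  contDiffOn u hu := ((ε.contDiffAt_par hu).comp u (cL n).contDiff.contDiffAt).contDiffWithinAt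
  injOn u hu v hv h := (cL n).injective ((A.e i).symm.injOn hu hv (ε.inj h))
  inj u hu := by
    rw [ε.fderiv_rpar hu]
    exact (ε.imm i _ hu).comp (cL n).injective
  image_open W hW hWo := by
    have h1 : IsOpen ((A.e i).symm '' (cL n '' W)) :=
      (A.e i).symm.isOpen_image_of_subset_source ((cL n).toHomeomorph.isOpenMap W hWo)
        (by rintro _ ⟨u, hu, rfl⟩; exact hW hu)
    refine ⟨_, ε.isOpen_op h1, ?_⟩
    rw [inter_op, image_image, image_image]
    rfl

theorem image_rpar (i : A.ι) : ε.rpar i '' (cL n ⁻¹' (A.e i).target) = ε.j '' (A.e i).source := by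
  ext y
  constructor
  · rintro ⟨u, hu, rfl⟩
    exact ⟨_, (A.e i).map_target hu, rfl⟩
  · rintro ⟨x, hx, rfl⟩
    refine ⟨(cL n).symm (A.e i x), ?_, ?_⟩
    · rw [mem_preimage, ContinuousLinearEquiv.apply_symm_apply]
      exact (A.e i).map_source hx
    · rw [rpar, ContinuousLinearEquiv.apply_symm_apply, ε.par_e hx]

/-- **the image is a closed submanifold** -/
theorem clo : Clo (2 * n) ε.X := by
  refine ⟨ε.isCompact_X, ε.forall_X.2 fun x => ?_⟩
  obtain ⟨i, hi⟩ := A.cover x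
  exact ⟨_, _, ε.chart i, (ε.image_rpar i).symm ▸ mem_image_of_mem _ hi⟩

theorem sub : Sub (2 * n) ε.X := ε.clo.sub

/-- the tangent space -/
theorem tan_eq (hz : z ∈ (A.e i).target) :
    Tan ε.X (ε.par i z) = LinearMap.range (fderiv ℝ (ε.par i) z : Cn n →ₗ[ℝ] E) := by
  obtain ⟨u, rfl⟩ := (cL n).surjective z
  have h := range_fderiv_eq_Tan (ε.chart i) (x := u) hz
  rw [ε.fderiv_rpar hz] at h
  rw [show ε.par i (cL n u) = ε.rpar i u from rfl, ← h]
  ext v
  constructor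
  · rintro ⟨a, rfl⟩
    exact ⟨cL n a, rfl⟩
  · rintro ⟨a, rfl⟩
    obtain ⟨b, rfl⟩ := (cL n).surjective a
    exact ⟨b, rfl⟩

/-- the derivative of the parametrisation, onto the tangent space -/
def dpar (hz : z ∈ (A.e i).target) : Cn n ≃ₗ[ℝ] Tan ε.X (ε.par i z) :=
  (LinearEquiv.ofInjective (fderiv ℝ (ε.par i) z : Cn n →ₗ[ℝ] E) (ε.imm i z hz)).trans
    (LinearEquiv.ofEq _ _ (ε.tan_eq hz).symm)


theorem pb_par (hz : z ∈ (A.e i).target) (c : Ext E) :
    pb (fderiv ℝ (ε.par i) z : Cn n →ₗ[ℝ] E) c =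
      pb (ε.dpar hz : Cn n →ₗ[ℝ] Tan ε.X (ε.par i z)) (pb (Tan ε.X (ε.par i z)).subtype c) := by
  rw [pb_comp]
  rfl

theorem pb_tan (hz : z ∈ (A.e i).target) (c : Ext E) :
    pb (Tan ε.X (ε.par i z)).subtype c = pb ((ε.dpar hz).symm : Tan ε.X (ε.par i z) →ₗ[ℝ] Cn n)
      (pb (fderiv ℝ (ε.par i) z : Cn n →ₗ[ℝ] E) c) := by
  rw [ε.pb_par hz, pb_comp _ (ε.dpar hz : Cn n →ₗ[ℝ] Tan ε.X (ε.par i z))]
  simp

/-- restriction to the tangent space, read in a chart -/
theorem res_iff (hz : z ∈ (A.e i).target) {c c' : Ext E} :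
    pb (Tan ε.X (ε.par i z)).subtype c = pb (Tan ε.X (ε.par i z)).subtype c' ↔
      pb (fderiv ℝ (ε.par i) z : Cn n →ₗ[ℝ] E) c = pb (fderiv ℝ (ε.par i) z : Cn n →ₗ[ℝ] E) c' :=
  ⟨fun h => by rw [ε.pb_par hz, ε.pb_par hz, h], fun h => by rw [ε.pb_tan hz, ε.pb_tan hz, h]⟩

theorem eqv_iff {a b : E → Ext E} :
    Eqv ε.X a b ↔ ∀ i, ∀ z ∈ (A.e i).target, pull (ε.par i) a z = pull (ε.par i) b z := by
  rw [R208.T.eqv_iff, ε.forall_par]
  exact forall₃_congr fun i z hz => ε.res_iff hz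


theorem rs_iff (hz : z ∈ (A.e i).target) {c c' : CF E} :
    rs ε.X (ε.par i z) c = rs ε.X (ε.par i z) c' ↔
      pbC (fderiv ℝ (ε.par i) z : Cn n →ₗ[ℝ] E) c = pbC (fderiv ℝ (ε.par i) z : Cn n →ₗ[ℝ] E) c' :=
  ⟨fun h => Cx.ext ((ε.res_iff hz).1 (congrArg Cx.re h)) ((ε.res_iff hz).1 (congrArg Cx.im h)),
    fun h => Cx.ext ((ε.res_iff hz).2 (congrArg Cx.re h)) ((ε.res_iff hz).2 (congrArg Cx.im h))⟩

/-- an ambient smooth inverse of the parametrisation near a point -/
theorem exists_inv (hx : x ∈ (A.e i).source) : ∃ (O : Set E) (l : E → Cn n), IsOpen O ∧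
    ε.j x ∈ O ∧ ContDiffOn ℝ ∞ l O ∧ (∀ q ∈ O, l q ∈ (A.e i).target) ∧
    ∀ y, ε.j y ∈ O → y ∈ (A.e i).source ∧ l (ε.j y) = A.e i y := by
  have hu : (cL n).symm (A.e i x) ∈ cL n ⁻¹' (A.e i).target := by
    rw [mem_preimage, ContinuousLinearEquiv.apply_symm_apply]
    exact (A.e i).map_source hx
  obtain ⟨O, l, h1, h2, h3, h4, -, h6⟩ := exists_coord (ε.chart i) hu
  rw [rpar, ContinuousLinearEquiv.apply_symm_apply, ε.par_e hx] at h2
  refine ⟨O, fun q => cL n (l q), h1, h2, (cL n).contDiff.comp_contDiffOn h3, h4, fun y hy => ?_⟩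
  have h7 : (A.e i).symm (cL n (l (ε.j y))) = y := ε.inj (h6 _ hy (ε.mem y))
  have h8 := h4 _ hy
  refine ⟨h7 ▸ (A.e i).map_target h8, ?_⟩
  have h9 := (A.e i).right_inv h8
  rw [h7] at h9
  exact h9.symm

variable {G : Type} [NormedAddCommGroup G] [NormedSpace ℝ G]

/-- a function which is smooth near a point is the restriction of an ambient smooth function -/
theorem exists_ext_at {f : M → G} {U : Set M} (hU : IsOpen U) (hf : SmOn A U f) (hx : x ∈ U) :
    ∃ O ∈ 𝓝 (ε.j x), ∃ g : E → G, ContDiffOn ℝ ∞ g O ∧ ∀ y, ε.j y ∈ O → g (ε.j y) = f y := by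
  obtain ⟨i, hi⟩ := A.cover x
  obtain ⟨O, l, h1, h2, h3, h4, h5⟩ := ε.exists_inv hi
  have hV : IsOpen ((A.e i).target ∩ (A.e i).symm ⁻¹' U) := (A.e i).isOpen_inter_preimage_symm hU
  refine ⟨O ∩ l ⁻¹' ((A.e i).target ∩ (A.e i).symm ⁻¹' U),
    (h3.continuousOn.isOpen_inter_preimage h1 hV).mem_nhds ⟨h2, ?_⟩,
    fun q => f ((A.e i).symm (l q)), fun q hq => ?_, fun y hy => ?_⟩
  · rw [mem_preimage, (h5 x h2).2]
    exact ⟨(A.e i).map_source hi, by rw [mem_preimage, (A.e i).left_inv hi]; exact hx⟩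
  · have h6 := hf i _ ((A.e i).map_target hq.2.1) hq.2.2
    rw [(A.e i).right_inv hq.2.1] at h6
    exact (h6.comp q (h3.contDiffAt (h1.mem_nhds hq.1))).contDiffWithinAt
  · simp only [(h5 y hy.1).2, (A.e i).left_inv (h5 y hy.1).1]

/-- **ambient extension** of a function which is smooth on an open set -/
theorem exists_ext_on {f : M → G} {U : Set M} (hU : IsOpen U) (hf : SmOn A U f) :
    ∃ g : E → G, (∀ q ∈ ε.op U, ContDiffAt ℝ ∞ g q) ∧ ∀ y ∈ U, g (ε.j y) = f y := by
  obtain ⟨g, h1, h2⟩ := exists_of_local (G := G) ε.isClosed_X (ε.isOpen_op hU)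
    (t := fun q => {c | ∀ y, ε.j y = q → c = f y})
    (fun q _ => by
      refine Set.Subsingleton.convex fun a ha b hb => ?_
      obtain ⟨⟨y, hy⟩, -⟩ := ‹q ∈ ε.X ∩ ε.op U›
      rw [ha y hy, hb y hy])
    (by
      rintro _ ⟨⟨x, rfl⟩, hx⟩
      obtain ⟨O, hO, g, h1, h2⟩ := ε.exists_ext_at hU hf (ε.mem_op.1 hx)
      refine ⟨O, hO, g, h1, ?_⟩
      rintro q hq - y rfl
      exact h2 y hq)
  exact ⟨g, h1, fun y hy => h2 _ ⟨ε.mem y, ε.mem_op.2 hy⟩ y rfl⟩

theorem op_univ : ε.op univ = univ := by simp [op]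

/-- **ambient extension** of a smooth function -/
theorem exists_ext {f : M → G} (hf : A.Sm f) :
    ∃ g : E → G, ContDiff ℝ ∞ g ∧ ∀ y, g (ε.j y) = f y := by
  obtain ⟨g, h1, h2⟩ := ε.exists_ext_on isOpen_univ (smOn_univ.2 hf)
  exact ⟨g, contDiff_iff_contDiffAt.2 fun q => h1 q (ε.op_univ ▸ mem_univ q),
    fun y => h2 y trivial⟩

/-- ambient smooth functions are smooth on the manifold -/
theorem smOn_comp {g : E → G} {U : Set M} (hg : ∀ y ∈ U, ContDiffAt ℝ ∞ g (ε.j y)) :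
    SmOn A U fun y => g (ε.j y) := fun i x hx hU => by
  have h1 := hg x hU
  rw [← ε.par_e hx] at h1
  exact h1.comp _ (ε.contDiffAt_par ((A.e i).map_source hx))


/-- **ambient forms** from compatible local forms over an open set -/
theorem exists_form_on {U : Set M} (hU : IsOpen U) {w : A.ι → Cn n → Ext (Cn n)}
    (hs : ∀ i, ∀ x ∈ (A.e i).source, x ∈ U → ContDiffAt ℝ ∞ (w i) (A.e i x))
    (hc : ∀ i k, ∀ x ∈ (A.e i).source, x ∈ (A.e k).source → x ∈ U →
      w i (A.e i x) = pull (tr A i k) (w k) (A.e i x)) :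
    ∃ W : E → Ext E, (∀ q ∈ ε.op U, ContDiffAt ℝ ∞ W q) ∧
      ∀ i, ∀ x ∈ (A.e i).source, x ∈ U → pull (ε.par i) W (A.e i x) = w i (A.e i x) := by
  obtain ⟨g, h1, h2⟩ := exists_of_local (G := Ext E) ε.isClosed_X (ε.isOpen_op hU)
    (t := fun q => {c | ∀ i, ∀ x ∈ (A.e i).source, ε.j x = q →
      pb (fderiv ℝ (ε.par i) (A.e i x) : Cn n →ₗ[ℝ] E) c = w i (A.e i x)})
    (fun q _ => by
      intro a ha b hb s t _ _ hst i x hx hq
      rw [map_add, map_smul, map_smul, ha i x hx hq, hb i x hx hq, ← add_smul, hst, one_smul])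
    (by
      rintro _ ⟨⟨x, rfl⟩, hx⟩
      replace hx := ε.mem_op.1 hx
      obtain ⟨k, hk⟩ := A.cover x
      obtain ⟨O, l, h1, h2, h3, h4, h5⟩ := ε.exists_inv hk
      have hV : IsOpen ((A.e k).target ∩ (A.e k).symm ⁻¹' U) :=
        (A.e k).isOpen_inter_preimage_symm hU
      refine ⟨O ∩ l ⁻¹' ((A.e k).target ∩ (A.e k).symm ⁻¹' U),
        (h3.continuousOn.isOpen_inter_preimage h1 hV).mem_nhds ⟨h2, ?_⟩,
        pull l (w k), fun q hq => ?_, ?_⟩
      · rw [mem_preimage, (h5 x h2).2]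
        exact ⟨(A.e k).map_source hk, by rw [mem_preimage, (A.e k).left_inv hk]; exact hx⟩
      · have h6 := hs k _ ((A.e k).map_target hq.2.1) hq.2.2
        rw [(A.e k).right_inv hq.2.1] at h6
        exact (contDiffAt_pull (h3.contDiffAt (h1.mem_nhds hq.1)) (le_refl _) h6).contDiffWithinAt
      · rintro q hq ⟨-, hqU⟩ i y hy rfl
        have hyk := (h5 y hq.1).1
        have hz := (A.e i).map_source hy
        have h7 : (fun z => l (ε.par i z)) =ᶠ[𝓝 (A.e i y)] tr A i k := by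
          have h8 : ∀ᶠ z in 𝓝 (A.e i y), ε.par i z ∈ O :=
            (ε.contDiffAt_par hz).continuousAt.preimage_mem_nhds
              (by rw [ε.par_e hy]; exact h1.mem_nhds hq.1)
          filter_upwards [h8] with z hz using (h5 _ hz).2
        rw [hc i k y hy hyk (ε.mem_op.1 hqU), ← pull_congr h7, ← ε.par_e hy]
        refine pull_comp (ε.diff_par hz) ?_
        rw [ε.par_e hy]
        exact (h3.contDiffAt (h1.mem_nhds hq.1)).differentiableAt (by simp))
  refine ⟨g, h1, fun i x hx hxU => ?_⟩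
  rw [pull, ε.par_e hx]
  exact h2 _ ⟨ε.mem x, ε.mem_op.2 hxU⟩ i x hx rfl

/-- **ambient forms** from compatible local forms -/
theorem exists_form {w : A.ι → Cn n → Ext (Cn n)}
    (hs : ∀ i, ∀ z ∈ (A.e i).target, ContDiffAt ℝ ∞ (w i) z)
    (hc : ∀ i k, ∀ z ∈ A.ov i k, w i z = pull (tr A i k) (w k) z) :
    ∃ W : E → Ext E, ContDiff ℝ ∞ W ∧ ∀ i, ∀ z ∈ (A.e i).target, pull (ε.par i) W z = w i z := by
  obtain ⟨W, h1, h2⟩ := ε.exists_form_on isOpen_univ (w := w)
    (fun i x hx _ => hs i _ ((A.e i).map_source hx)) fun i k x hx hk _ => hc i k _ (mem_ov hx hk)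
  refine ⟨W, contDiff_iff_contDiffAt.2 fun q => h1 q (ε.op_univ ▸ mem_univ q), fun i z hz => ?_⟩
  have := h2 i _ ((A.e i).map_target hz) trivial
  rwa [(A.e i).right_inv hz] at this

/-! ### maps -/

variable {B : Atl m N} {E' : Type} [NormedAddCommGroup E'] [NormedSpace ℝ E']
  [FiniteDimensional ℝ E'] (ε' : Emb B E')

omit [CompactSpace M] in
theorem _root_.Crest.Agent.X262.Man.sm_comp_hol {p : M → N} (hp : HolMap A B p) {f : N → G}
    (hf : B.Sm f) : A.Sm fun x => f (p x) := by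
  refine smOn_univ.1 fun i x hx _ => ?_
  obtain ⟨k, hk⟩ := B.cover (p x)
  have hd := R273.Map_835.mem_dm (p := p) hx hk
  have h1 : ContDiffAt ℝ ∞ (R273.Map_835.rd A B p i k) (A.e i x) :=
    ((hp.analyticAt hd).contDiffAt (n := ∞)).restrict_scalars ℝ
  have h2 := smOn_univ.2 hf k (p x) hk trivial
  have h3 : R273.Map_835.rd A B p i k (A.e i x) = B.e k (p x) := by
    rw [R273.Map_835.rd, (A.e i).left_inv hx]
  rw [← h3] at h2
  refine (h2.comp _ h1).congr_of_eventuallyEq ?_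
  filter_upwards [(hp.isOpen_dm i k).mem_nhds hd] with z hz
  simp only [comp_apply, R273.Map_835.rd, (B.e k).left_inv hz.2]

/-- an ambient smooth map which induces `f` -/
def amb (f : M → G) : E → G := ambF ε.j f

theorem contDiff_amb (f : M → G) : ContDiff ℝ ∞ (ε.amb f) := contDiff_ambF _ _

theorem amb_j {f : M → G} (hf : A.Sm f) (y : M) : ε.amb f (ε.j y) = f y :=
  ambF_j (ε.exists_ext hf) y


/-- a smooth map into the set `Y` -/
theorem smap_amb [FiniteDimensional ℝ G] {f : M → G} (hf : A.Sm f) {Y : Set G} (hY : ∀ y, f y ∈ Y) :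
    SMap ε.X Y (ε.amb f) :=
  ⟨fun _ _ => (ε.contDiff_amb f).contDiffAt, by
    rintro _ ⟨y, rfl⟩
    rw [ε.amb_j hf]
    exact hY y⟩

/-- **holomorphic maps are smooth maps** -/
theorem smap {p : M → N} (hp : HolMap A B p) : SMap ε.X ε'.X (ε.amb fun x => ε'.j (p x)) :=
  ε.smap_amb (sm_comp_hol hp ε'.sm) fun _ => ε'.mem _

/-- an ambient map which induces `p`, read in charts -/
theorem comp_par {p : M → N} (hp : HolMap A B p) {g : E → E'} (hg : ∀ y, g (ε.j y) = ε'.j (p y))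
    {i : A.ι} {k : B.ι} {z : Cn n} (hz : z ∈ R273.Map_835.dm A B p i k) :
    (fun w => g (ε.par i w)) =ᶠ[𝓝 z] fun w => ε'.par k (R273.Map_835.rd A B p i k w) := by
  filter_upwards [(hp.isOpen_dm i k).mem_nhds hz] with w hw
  rw [par, hg, par, R273.Map_835.rd, (B.e k).left_inv hw.2]

/-- the pull-back of a form, read in charts -/
theorem pull_pull {p : M → N} (hp : HolMap A B p) {g : E → E'} (hg : ∀ y, g (ε.j y) = ε'.j (p y))
    (hd : ∀ y, DifferentiableAt ℝ g (ε.j y)) {i : A.ι} {k : B.ι} {z : Cn n}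
    (hz : z ∈ R273.Map_835.dm A B p i k) (w : E' → Ext E') :
    pull (ε.par i) (pull g w) z =
      pull (R273.Map_835.rd A B p i k) (pull (ε'.par k) w) z := by
  rw [pull_comp (ε.diff_par hz.1) (hd _)]
  refine (pull_congr (ε.comp_par ε' hp hg hz)).trans ?_
  exact (pull_comp ((hp.diffAt hz).restrictScalars ℝ) (ε'.diff_par ((B.e k).map_source hz.2))).symm

end Emb

end Crest.Agent.X262.Man
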