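import Crest.Agent.X262.Man.PM
import Crest.Agent.X277.BD.Num
import Crest.Agent.X262.Man.Th

-- ▼ part X262/Man/Deg
section

/-!
# Row 262, MAN (helper16), part 6: the degree formula

* `exists_count` : a dominant morphism between varieties of the same dimension is locally injective
  on a Zariski open set and has `deg` points in the general fibre;
* `IntP_pull`, `intP_pullH` : `∫ μ^* a = deg · ∫ a`.
-/

set_option autoImplicit false
set_option linter.unusedSectionVars false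
set_option linter.style.haveILetI false

open Set Filter Topology Function Module MeasureTheory Polynomial
open scoped ContDiff

noncomputable section

namespace Crest.Agent.X262.Man

open Crest.Agent.R208.F Crest.Agent.R208.FI Crest.Agent.R208.CW Crest.Agent.R208.T
open Crest.Agent.X277.Lef Crest.Agent.X277.AN.G1
open Crest.Agent.X277.BD (dim deg deg_pos_iff)

variable {F K : Type} [Field F] [Algebra ℂ F] [Field K] [Algebra ℂ K] {P : PModel ℂ F}
  {P' : PModel ℂ K} {μ : Mor P' P} {α : F →ₐ[ℂ] K}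

theorem ae_mem (f : F) : ∀ᵐ x ∂volP P, f ∈ (X277.AN.G1.lp x).O := by
  by_cases hf : f = 0
  · exact Eventually.of_forall fun x => hf ▸ zero_mem _
  · exact (ae_ev_ne hf).mono fun x => LP.mem_of_ne

theorem ev_map_hom (hμ : μ.p = Plc.ofHom α) {x : Pts P'} {f : F}
    (hf : f ∈ (X277.AN.G1.lp (μ.map x)).O) : ev f (μ.map x) = ev (α f) x := by
  rw [μ.ev_map hf, hμ, Plc.ofHom_π]

theorem ae_map_pat (hμ : μ.p = Plc.ofHom α) (i : Fin (P.N + 1)) :
    ∀ᵐ x ∂volP P', μ.map x ∈ pat P i := by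
  have h : ∀ j, ∀ᵐ x ∂volP P', ev (α (P.y i / P.y j)) x ≠ 0 := fun j =>
    ae_ev_ne ((map_ne_zero α).2 (div_ne_zero (P.y_ne i) (P.y_ne j)))
  filter_upwards [ae_all_iff.2 h] with x hx
  obtain ⟨j, hj⟩ := exists_pat (μ.map x)
  rw [mem_pat_iff hj, ev_map_hom hμ (y_mem hj i)]
  exact hx j

theorem ae_map_mem (hμ : μ.p = Plc.ofHom α) (f : F) :
    ∀ᵐ x ∂volP P', f ∈ (X277.AN.G1.lp (μ.map x)).O := by
  obtain ⟨a, ha, c, hc, hc0, rfl⟩ := P.frac' 0 f
  filter_upwards [ae_map_pat hμ 0, ae_ev_ne (P := P') ((map_ne_zero α).2 hc0)] with x h1 h2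
  rw [← ev_map_hom hμ (A_le h1 hc)] at h2
  exact LP.div_mem (A_le h1 ha) h2

/-- the coefficients are regular -/
def RegC (L : LP F) (p : F[X]) : Prop := ∀ k, p.coeff k ∈ L.O

theorem RegC.exists_lift {L : LP F} {p : F[X]} (h : RegC L p) :
    ∃ q : L.O[X], q.map (algebraMap L.O F) = p :=
  (mem_lifts p).1 ((lifts_iff_coeff_lifts p).2 fun k => ⟨⟨_, h k⟩, rfl⟩)

theorem v_eval₂ {L : LP F} {L' : LP K} (h : L.Dom (L'.comap (Plc.ofHom α))) {θ : K}
    (hθ : θ ∈ L'.O) (q : L.O[X]) :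
    (q.map (algebraMap L.O F)).eval₂ (α : F →+* K) θ ∈ L'.O ∧
      L'.v ((q.map (algebraMap L.O F)).eval₂ (α : F →+* K) θ) =
        (q.map (L.hom : L.O →+* ℂ)).eval (L'.v θ) := by
  induction q using Polynomial.induction_on' with
  | add p q hp hq =>
    rw [Polynomial.map_add, eval₂_add, Polynomial.map_add, eval_add, L'.v_add hp.1 hq.1, hp.2, hq.2]
    exact ⟨add_mem hp.1 hq.1, rfl⟩
  | monomial k c =>
    have h1 : α c ∈ L'.O := (h.le c.2).2
    have h2 : L'.v (α c) = L.v c := h.eq _ c.2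
    rw [Polynomial.map_monomial, eval₂_monomial, Polynomial.map_monomial, eval_monomial]
    exact ⟨mul_mem h1 (pow_mem hθ k), by
      rw [show (α : F →+* K) (algebraMap L.O F c) = α c from rfl, L'.v_mul h1 (pow_mem hθ k),
        LP.v_pow hθ, h2]; rfl⟩

/-- a root of the specialised minimal polynomial is a point -/
theorem exists_lp_root (L : LP F) {θ : K} {m : L.O[X]} (hm : m.Monic)
    (hd : ∀ p : F[X], p.eval₂ (α : F →+* K) θ = 0 → m.map (algebraMap L.O F) ∣ p) {t : ℂ}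
    (ht : (m.map (L.hom : L.O →+* ℂ)).eval t = 0) :
    ∃ L' : LP K, L.Dom (L'.comap (Plc.ofHom α)) ∧ θ ∈ L'.O ∧ L'.v θ = t := by
  let E : L.O[X] →ₐ[ℂ] K := aevalTower (α.comp L.O.val) θ
  have hE : ∀ q, E q = (q.map (algebraMap L.O F)).eval₂ (α : F →+* K) θ := fun q => by
    rw [eval₂_map]
    rfl
  let χ : E.range →ₐ[ℂ] ℂ := AlgHom.liftOfSurjective E.rangeRestrict E.rangeRestrict_surjective
    (aevalTower L.hom t) (by
      intro q hq
      have h1 : E q = 0 := congrArg Subtype.val (show E.rangeRestrict q = 0 from hq)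
      obtain ⟨r, rfl⟩ := (map_dvd_map _ Subtype.val_injective hm).1 (hd _ ((hE q).symm.trans h1))
      have h2 : aevalTower L.hom t m = 0 := by
        rw [eval_map] at ht
        exact ht
      show aevalTower L.hom t (m * r) = 0
      rw [map_mul, h2, zero_mul])
  have hχ : ∀ q, (lpAt χ).v (E q) = aevalTower L.hom t q := fun q =>
    (lpAt_v χ (E.rangeRestrict q)).trans (AlgHom.liftOfSurjective_apply _ _ _ _ _)
  have hC : ∀ c : L.O, E (C c) = α c := fun c => aevalTower_C _ _ _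
  have hX : E X = θ := aevalTower_X _ _
  refine ⟨lpAt χ, ⟨fun f hf => ⟨Algebra.mem_top, le_lpAt χ ⟨C ⟨f, hf⟩, hC _⟩⟩, fun f hf => ?_⟩,
    le_lpAt χ ⟨X, hX⟩, ?_⟩
  · have h1 := hχ (C ⟨f, hf⟩)
    rw [hC, aevalTower_C] at h1
    exact h1
  · rw [← hX, hχ, aevalTower_X]

theorem eq_of_root {p : ℂ[X]} {d : ℕ} (hd : p.natDegree < d) {s t : ℂ} (hs : p.eval s = 0)
    (ht : p.eval t = 0)
    (h : ∑ k ∈ Finset.range d, p.coeff k * ∑ i ∈ Finset.range k, s ^ i * t ^ (k - 1 - i) ≠ 0) :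
    s = t := by
  have h1 : (∑ k ∈ Finset.range d, p.coeff k * ∑ i ∈ Finset.range k, s ^ i * t ^ (k - 1 - i)) *
      (s - t) = p.eval s - p.eval t := by
    rw [eval_eq_sum_range' hd, eval_eq_sum_range' hd, Finset.sum_mul, ← Finset.sum_sub_distrib]
    exact Finset.sum_congr rfl fun k _ => by rw [mul_assoc, geom_sum₂_mul, mul_sub]
  rw [hs, ht, sub_zero] at h1
  exact sub_eq_zero.1 ((mul_eq_zero.1 h1).resolve_left h)

theorem eval_derivative_eq {p : ℂ[X]} {d : ℕ} (hd : p.natDegree < d) (t : ℂ) :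
    ∑ k ∈ Finset.range d, p.coeff k * ∑ i ∈ Finset.range k, t ^ i * t ^ (k - 1 - i) =
      (derivative p).eval t := by
  rw [derivative_eval, sum_over_range' _ (by simp) d hd]
  exact Finset.sum_congr rfl fun k _ => by rw [geom_sum₂_self, mul_assoc]

theorem continuousAt_dd {T : Type*} [TopologicalSpace T] {c : ℕ → T → ℂ} {s : T → ℂ} {x : T}
    (hc : ∀ k, ContinuousAt (c k) x) (hs : ContinuousAt s x) (d : ℕ) :
    ContinuousAt (fun z : T × T => ∑ k ∈ Finset.range d,
      c k z.1 * ∑ i ∈ Finset.range k, s z.1 ^ i * s z.2 ^ (k - 1 - i)) (x, x) := by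
  have h1 : ContinuousAt (fun z : T × T => s z.1) (x, x) :=
    ContinuousAt.comp (g := s) (f := Prod.fst) hs continuousAt_fst
  have h2 : ContinuousAt (fun z : T × T => s z.2) (x, x) :=
    ContinuousAt.comp (g := s) (f := Prod.snd) hs continuousAt_snd
  refine tendsto_finsetSum _ fun k _ => Tendsto.mul ?_ ?_
  · exact ContinuousAt.comp (g := c k) (f := Prod.fst) (hc k) continuousAt_fst
  · exact tendsto_finsetSum _ fun i _ => Tendsto.mul (h1.pow i) (h2.pow _)

/-- **the general fibre** -/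
theorem exists_count (hμ : μ.p = Plc.ofHom α) (hd : dim ℂ K = dim ℂ F) : ∃ U : Set (Pts P'),
    MeasurableSet U ∧ volP P' Uᶜ = 0 ∧ (∀ x ∈ U, ∃ W ∈ 𝓝 x, InjOn μ.map (U ∩ W)) ∧
      ∀ᵐ y ∂volP P, (U ∩ μ.map ⁻¹' {y}).encard = deg α := by
  classical
  haveI := essFiniteType P
  haveI := essFiniteType P'
  have hpos := (deg_pos_iff α).2 hd
  letI := α.toRingHom.toAlgebra
  haveI : FiniteDimensional F K := Module.finite_of_finrank_pos hpos
  haveI : CharZero F := charZero_of_injective_algebraMap (algebraMap ℂ F).injective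
  let pw := Field.powerBasisOfFiniteOfSeparable F K
  set θ := pw.gen with hθ
  set m := minpoly F θ with hm
  have hmo : m.Monic := minpoly.monic pw.isIntegral_gen
  have hmd : m.natDegree = deg α := pw.natDegree_minpoly.trans pw.finrank.symm
  have hm0 : m.eval₂ (α : F →+* K) θ = 0 := minpoly.aeval F θ
  have hdvd : ∀ p : F[X], p.eval₂ (α : F →+* K) θ = 0 → m ∣ p := fun p hp => minpoly.dvd F θ hp
  obtain ⟨u, v, huv⟩ : m.Separable := Algebra.IsSeparable.isSeparable F θ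
  have hq : ∀ g : K, ∃ q : F[X], q.eval₂ (α : F →+* K) θ = g := fun g =>
    (pw.exists_eq_aeval' g).imp fun q hq => hq.symm
  choose q hq using hq
  obtain ⟨a, ha, c, hc, hc0, hac⟩ := P'.frac' 0 θ
  -- the good points of `P`
  let G : Pts P → Prop := fun y => RegC (X277.AN.G1.lp y) m ∧ RegC (X277.AN.G1.lp y) u ∧
    RegC (X277.AN.G1.lp y) v ∧ RegC (X277.AN.G1.lp y) (q c⁻¹) ∧
    ∀ j, RegC (X277.AN.G1.lp y) (q (P'.y j / P'.y 0))
  let U : Set (Pts P') := {x | x ∈ pat P' 0 ∧ ev c x ≠ 0 ∧ G (μ.map x)}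
  have hθU : ∀ x ∈ U, θ ∈ (X277.AN.G1.lp x).O := fun x hx =>
    hac ▸ LP.div_mem (A_le hx.1 ha) hx.2.1
  have hdom : ∀ x, (X277.AN.G1.lp (μ.map x)).Dom ((X277.AN.G1.lp x).comap (Plc.ofHom α)) :=
    fun x => hμ ▸ μ.dom x
  have key : ∀ y, G y → ∃ p : ℂ[X], p.Separable ∧ p.Monic ∧ p.natDegree = deg α ∧
      (∀ k, p.coeff k = ev (m.coeff k) y) ∧
      BijOn (ev θ) (U ∩ μ.map ⁻¹' {y}) {t | p.eval t = 0} := by
    intro y hy
    obtain ⟨mO, h1, h2, h3⟩ := lifts_and_natDegree_eq_and_monic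
      ((mem_lifts m).2 hy.1.exists_lift) hmo
    obtain ⟨uO, hu⟩ := hy.2.1.exists_lift
    obtain ⟨vO, hv⟩ := hy.2.2.1.exists_lift
    have h4 : mO.Separable := ⟨uO, vO, Polynomial.map_injective
      (algebraMap (X277.AN.G1.lp y).O F) Subtype.val_injective (by
        rw [Polynomial.map_add, Polynomial.map_mul, Polynomial.map_mul, ← derivative_map, h1, hu,
          hv, huv, Polynomial.map_one])⟩
    refine ⟨mO.map ((X277.AN.G1.lp y).hom : _ →+* ℂ), h4.map, h3.map _,
      (h3.natDegree_map _).trans (h2.trans hmd), fun k => ?_, ?_, ?_, ?_⟩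
    · rw [coeff_map, ← h1, coeff_map]
      rfl
    · rintro x ⟨hx, rfl⟩
      have h5 := (v_eval₂ (hdom x) (hθU x hx) mO).2
      rw [h1, hm0, LP.v_zero] at h5
      exact h5.symm
    · rintro x ⟨hx, rfl⟩ x' ⟨hx', h5⟩ h6
      refine pt_ext hx.1 hx'.1 fun j => ?_
      obtain ⟨r, hr⟩ := (hy.2.2.2.2 j).exists_lift
      have h7 := (v_eval₂ (hdom x) (hθU x hx) r).2
      have h8 := hdom x'
      rw [show μ.map x' = μ.map x from h5] at h8
      have h9 := (v_eval₂ h8 (hθU x' hx') r).2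
      rw [hr, hq] at h7 h9
      exact h7.trans ((congrArg (fun s => Polynomial.eval s _) h6).trans h9.symm)
    · intro t ht
      obtain ⟨L, hL, hθL, hLt⟩ := exists_lp_root (α := α) (X277.AN.G1.lp y) h3 (h1 ▸ hdvd) ht
      have h5 : ∀ g, RegC (X277.AN.G1.lp y) (q g) → g ∈ L.O := fun g hg => by
        obtain ⟨r, hr⟩ := hg.exists_lift
        have h6 := (v_eval₂ hL hθL r).1
        rwa [hr, hq] at h6
      obtain ⟨x, hx, hxL⟩ := exists_dom (P := P') (i := 0) L fun j => h5 _ (hy.2.2.2.2 j)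
      have h6 : μ.map x = y := eq_of_dom (L := L.comap (Plc.ofHom α))
        ⟨fun f hf => ⟨Algebra.mem_top, hxL.le ((hdom x).le hf).2⟩, fun f hf =>
          (hxL.eq _ ((hdom x).le hf).2).trans ((hdom x).eq f hf)⟩ hL
      have h7 : ev c x ≠ 0 := by
        rw [ev, ← hxL.eq _ (A_le hx hc)]
        exact LP.ne_of_inv_mem (hxL.le (A_le hx hc)) hc0 (h5 _ hy.2.2.2.1)
      have h8 : x ∈ U := ⟨hx, h7, h6 ▸ hy⟩
      exact ⟨x, ⟨h8, h6⟩, (hxL.eq _ (hθU x h8)).symm.trans hLt⟩
  have hR : ∀ p : F[X], MeasurableSet {x : Pts P' | RegC (X277.AN.G1.lp (μ.map x)) p} := fun p => by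
    simp only [RegC, setOf_forall]
    exact MeasurableSet.iInter fun k =>
      ((isOpen_reg (p.coeff k)).preimage μ.continuous).measurableSet
  refine ⟨U, ?_, ?_, fun x hx => ?_, ?_⟩
  · refine (isOpen_pat P' 0).measurableSet.inter ((isOpen_ev_ne c).measurableSet.inter
      ((hR m).inter ((hR u).inter ((hR v).inter ((hR _).inter ?_)))))
    have h1 := MeasurableSet.iInter fun j => hR (q (P'.y j / P'.y 0))
    rwa [← setOf_forall] at h1
  · have h1 : ∀ p : F[X], ∀ᵐ x ∂volP P', RegC (X277.AN.G1.lp (μ.map x)) p := fun p =>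
      ae_all_iff.2 fun k => ae_map_mem hμ _
    refine (mem_ae_iff (μ := volP P')).1 ?_
    filter_upwards [ae_pat 0, ae_ev_ne hc0, h1 m, h1 u, h1 v, h1 (q c⁻¹),
      ae_all_iff.2 fun j => h1 (q (P'.y j / P'.y 0))] with x a1 a2 a3 a4 a5 a6 a7
    exact ⟨a1, a2, a3, a4, a5, a6, a7⟩
  · let D : Pts P' × Pts P' → ℂ := fun z => ∑ k ∈ Finset.range (deg α + 1),
      ev (m.coeff k) (μ.map z.1) * ∑ i ∈ Finset.range k, ev θ z.1 ^ i * ev θ z.2 ^ (k - 1 - i)
    have h1 : ContinuousAt D (x, x) :=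
      continuousAt_dd (fun k => (continuousAt_ev (hx.2.2.1 k)).comp μ.continuous.continuousAt)
        (continuousAt_ev (hθU x hx)) _
    have h2 : D (x, x) ≠ 0 := by
      obtain ⟨p, hp1, -, hp3, hp4, hp5⟩ := key _ hx.2.2
      simp only [D, ← hp4]
      rw [eval_derivative_eq (by omega)]
      have h3 := hp1.aeval_derivative_ne_zero (x := ev θ x) (hp5.mapsTo ⟨hx, rfl⟩)
      exact h3
    have h3 := h1.eventually_ne h2
    rw [nhds_prod_eq] at h3
    obtain ⟨W, hW, h4⟩ := (eventually_prod_self_iff (r := fun a b => D (a, b) ≠ 0)).1 h3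
    refine ⟨W, hW, fun x1 hx1 x2 hx2 h5 => ?_⟩
    obtain ⟨p, -, -, hp3, hp4, hp5⟩ := key _ hx1.1.2.2
    refine hp5.injOn ⟨hx1.1, rfl⟩ ⟨hx2.1, h5.symm⟩ (eq_of_root (d := deg α + 1) (by omega)
      (hp5.mapsTo ⟨hx1.1, rfl⟩) (hp5.mapsTo ⟨hx2.1, h5.symm⟩) ?_)
    simp only [hp4]
    exact h4 x1 hx1.2 x2 hx2.2
  · have h1 : ∀ p : F[X], ∀ᵐ y ∂volP P, RegC (X277.AN.G1.lp y) p := fun p =>
      ae_all_iff.2 fun k => ae_mem _
    filter_upwards [h1 m, h1 u, h1 v, h1 (q c⁻¹),
      ae_all_iff.2 fun j => h1 (q (P'.y j / P'.y 0))] with y a3 a4 a5 a6 a7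
    obtain ⟨p, hp1, hp2, hp3, -, hp5⟩ := key y ⟨a3, a4, a5, a6, a7⟩
    rw [← hp5.injOn.encard_image, hp5.image_eq, ← hp3,
      ← card_rootSet_eq_natDegree (K := ℂ) hp1 (IsAlgClosed.splits _),
      ← Set.toFinset_card, ← encard_eq_coe_toFinset_card]
    congr 1
    ext t
    rw [mem_rootSet_of_ne hp2.ne_zero]
    rfl


/-- **the degree formula** -/
theorem intP_pullH (hμ : μ.p = Plc.ofHom α) (hd : dim ℂ K = dim ℂ F) (a : HP P) :
    intP P' (pullH μ a) = deg α * intP P a := by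
  obtain ⟨U, h1, h2, h3, h4⟩ := exists_count hμ hd
  obtain ⟨X'⟩ : Nonempty (AnP P' (dim ℂ F)) := hd ▸ nonempty_an P'
  rw [intP_eq X', intP_eq (an P)]
  exact (emb X').integ_map_of_count (em P) (μ.holMap X' (an P)) (ambM_j μ) (smapM μ) h1
    (volP_eq X' ▸ h2) h3 h4 a

end Crest.Agent.X262.Man
end
end

-- ▼ part X262/Man/Pt

/-!
# Row 262, MAN (helper16), part 7: the point; the degree formula in the language of `Coh`

* `intP_one` : `∫ 1 = 1` in dimension `0`;
* `degB`, `degD` : the degree formula for `Bim` and for dominant morphisms.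
-/

set_option autoImplicit false
set_option linter.unusedSectionVars false
set_option linter.style.haveILetI false

open Set Filter Topology Function Module MeasureTheory

noncomputable section

namespace Crest.Agent.X262.Man

open Crest.Agent.R208.F Crest.Agent.R208.FI Crest.Agent.R208.CW Crest.Agent.R208.T
open Crest.Agent.R275.Geo (Cn RI rc Atl)
open Crest.Agent.X277 Crest.Agent.X277.Lef Crest.Agent.X277.AN.G1
open Crest.Agent.X277.BD (dim deg)
open Crest.Agent.X262.Coh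

theorem volume_Cn_zero : volume (univ : Set (Cn 0)) = 1 := by
  haveI : IsEmpty (Fin (2 * 0)) := inferInstanceAs (IsEmpty (Fin 0))
  rw [← (measurePreserving_cL (n := 0)).measure_preimage MeasurableSet.univ.nullMeasurableSet,
    preimage_univ, volume_euclideanSpace_eq_dirac]
  simp

theorem Emb.Int_one {M : Type} [TopologicalSpace M] [CompactSpace M] [ConnectedSpace M]
    {A : Atl 0 M} {E : Type} [NormedAddCommGroup E] [NormedSpace ℝ E] [FiniteDimensional ℝ E]
    (ε : Emb A E) : ε.Int 1 = 1 := by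
  borelize M
  haveI : DiscreteTopology M := discreteTopology_iff_isOpen_singleton.2 fun x => by
    obtain ⟨i, hi⟩ := A.cover x
    convert (A.e i).open_source
    exact (eq_singleton_iff_unique_mem.2 ⟨hi, fun y hy =>
      (A.e i).injOn hy hi (Subsingleton.elim _ _)⟩).symm
  haveI : Subsingleton M := PreconnectedSpace.trivial_of_discrete
  obtain ⟨x⟩ : Nonempty M := inferInstance
  obtain ⟨i, hi⟩ := A.cover x
  have h1 : ∀ z, topC 0 (pull (ε.par i) 1 z) = 1 := fun z => by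
    have h := topC_om0_pow (n := 0)
    rw [pow_zero, Nat.factorial_zero, Nat.cast_one] at h
    rw [← h, pull]
    exact congrArg _ (map_one _)
  have h2 : A.e i '' univ = univ := eq_univ_of_forall fun z => ⟨x, trivial, Subsingleton.elim _ _⟩
  rw [ε.Int_eq, ← setIntegral_univ, ε.setInt_chart' (i := i) MeasurableSet.univ
    fun y _ => Subsingleton.elim x y ▸ hi, h2]
  simp [h1, Measure.real, volume_Cn_zero]

variable {F : Type} [Field F] [Algebra ℂ F] {P : PModel ℂ F}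

theorem intP_one (h : dim ℂ F = 0) : intP P 1 = 1 := by
  obtain ⟨X⟩ : Nonempty (AnP P 0) := h ▸ nonempty_an P
  haveI := connectedP P
  rw [← rcl_one, intP_rcl, IntP_eq X, (emb X).Int_one, Complex.ofReal_one]

theorem degD {X Y : SV} {μ : Hom X Y} {α : Y.F →ₐ[ℂ] X.F} (hμ : μ.p = Plc.ofHom α)
    (hd : X.dim = Y.dim) (a : HP Y.P) : intP X.P (pullH μ a) = deg α * intP Y.P a :=
  intP_pullH hμ hd a

theorem deg_of_surjective {K : Type} [Field K] [Algebra ℂ K] {α : F →ₐ[ℂ] K}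
    (h : Surjective α) : deg α = 1 := by
  letI := α.toRingHom.toAlgebra
  exact (LinearEquiv.ofBijective (Algebra.linearMap F K) ⟨α.injective, h⟩).finrank_eq.symm.trans
    (Module.finrank_self F)

theorem degB {X Y : SV} {μ : Hom X Y} (hμ : Bim μ) (a : HP Y.P) :
    intP X.P (pullH μ a) = intP Y.P a := by
  obtain ⟨α, h1, h2⟩ := hμ
  have h3 := deg_of_surjective h2
  rw [degD h1 ((BD.deg_pos_iff α).1 (h3 ▸ one_pos)), h3, Nat.cast_one, one_mul]

end Crest.Agent.X262.Man
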